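import Claimed.Agent.R322.Base.Area.Approx

/-!
# Row 322, Base/Area/Jac: the area formula for injective maps `E m → F`

Port of `Mathlib/MeasureTheory/Function/Jacobian.lean` (change of variables for maps `E → E`) to
maps `f : E m → F` into a finite dimensional inner product space, with the Hausdorff measure
`μH[m]` on both sides and the Jacobian `nd (f' x)` in place of `|det (f' x)|`.
The two local estimates are in `Approx.lean`; the rest follows Mathlib line by line.
-/

set_option autoImplicit false

open MeasureTheory MeasureTheory.Measure Metric Filter Set Module Asymptotics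
  TopologicalSpace

open scoped NNReal ENNReal Topology Pointwise Function

namespace Claimed.Agent.R322.Base.Area

variable {m : ℕ} {F : Type*} [NormedAddCommGroup F] [InnerProductSpace ℝ F]
  [FiniteDimensional ℝ F] [MeasurableSpace F] [BorelSpace F]
  {s : Set (E m)} {f : E m → F} {f' : E m → E m →L[ℝ] F}

local notation "μ" => (μH[(m : ℝ)] : Measure (E m))
local notation "ν" => (μH[(m : ℝ)] : Measure F)

/-- If a differentiable function `f` is approximated by a linear map `A` on a set `s`, up to `δ`,
then at almost every `x` in `s` one has `‖f' x - A‖ ≤ δ`. -/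
theorem approx_norm_fderiv_sub_le {A : E m →L[ℝ] F} {δ : ℝ≥0}
    (hf : ApproximatesLinearOn f A s δ) (hs : MeasurableSet s) (f' : E m → E m →L[ℝ] F)
    (hf' : ∀ x ∈ s, HasFDerivWithinAt f (f' x) s x) : ∀ᵐ x ∂(μ).restrict s, ‖f' x - A‖₊ ≤ δ := by
  /- The conclusion will hold at the Lebesgue density points of `s` (which have full measure).
    At such a point `x`, for any `z` and any `ε > 0` one has for small `r`
    that `{x} + r • closedBall z ε` intersects `s`. At a point `y` in the intersection,
    `f y - f x` is close both to `f' x (r z)` (by differentiability) and to `A (r z)`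
    (by linear approximation), so these two quantities are close, i.e., `(f' x - A) z` is small. -/
  filter_upwards [Besicovitch.ae_tendsto_measure_inter_div μ s, ae_restrict_mem hs]
  -- start from a Lebesgue density point `x`, belonging to `s`.
  intro x hx xs
  -- consider an arbitrary vector `z`.
  apply ContinuousLinearMap.opNorm_le_bound _ δ.2 fun z => ?_
  -- to show that `‖(f' x - A) z‖ ≤ δ ‖z‖`, it suffices to do it up to some error that vanishes
  -- asymptotically in terms of `ε > 0`.
  suffices H : ∀ ε, 0 < ε → ‖(f' x - A) z‖ ≤ (δ + ε) * (‖z‖ + ε) + ‖f' x - A‖ * ε by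
    have :
      Tendsto (fun ε : ℝ => ((δ : ℝ) + ε) * (‖z‖ + ε) + ‖f' x - A‖ * ε) (𝓝[>] 0)
        (𝓝 ((δ + 0) * (‖z‖ + 0) + ‖f' x - A‖ * 0)) :=
      Tendsto.mono_left (Continuous.tendsto (by fun_prop) 0) nhdsWithin_le_nhds
    simp only [add_zero, mul_zero] at this
    apply le_of_tendsto_of_tendsto tendsto_const_nhds this
    filter_upwards [self_mem_nhdsWithin]
    exact H
  -- fix a positive `ε`.
  intro ε εpos
  -- for small enough `r`, the rescaled ball `r • closedBall z ε` intersects `s`, as `x` is a
  -- density point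
  have B₁ : ∀ᶠ r in 𝓝[>] (0 : ℝ), (s ∩ ({x} + r • closedBall z ε)).Nonempty :=
    eventually_nonempty_inter_smul_of_density_one μ s x hx _ measurableSet_closedBall
      (measure_closedBall_pos μ z εpos).ne'
  obtain ⟨ρ, ρpos, hρ⟩ :
    ∃ ρ > 0, ball x ρ ∩ s ⊆ {y : E m | ‖f y - f x - (f' x) (y - x)‖ ≤ ε * ‖y - x‖} :=
    mem_nhdsWithin_iff.1 ((hf' x xs).isLittleO.def εpos)
  -- for small enough `r`, the rescaled ball `r • closedBall z ε` is included in the set where
  -- `f y - f x` is well approximated by `f' x (y - x)`.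
  have B₂ : ∀ᶠ r in 𝓝[>] (0 : ℝ), {x} + r • closedBall z ε ⊆ ball x ρ := by
    apply nhdsWithin_le_nhds
    exact eventually_singleton_add_smul_subset isBounded_closedBall (ball_mem_nhds x ρpos)
  -- fix a small positive `r` satisfying the above properties, as well as a corresponding `y`.
  obtain ⟨r, ⟨y, ⟨ys, hy⟩⟩, rρ, rpos⟩ :
    ∃ r : ℝ,
      (s ∩ ({x} + r • closedBall z ε)).Nonempty ∧ {x} + r • closedBall z ε ⊆ ball x ρ ∧ 0 < r :=
    (B₁.and (B₂.and self_mem_nhdsWithin)).exists
  -- write `y = x + r a` with `a ∈ closedBall z ε`.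
  obtain ⟨a, az, ya⟩ : ∃ a, a ∈ closedBall z ε ∧ y = x + r • a := by
    simp only [mem_smul_set, image_add_left, mem_preimage, singleton_add] at hy
    rcases hy with ⟨a, az, ha⟩
    exact ⟨a, az, by simp only [ha, add_neg_cancel_left]⟩
  have norm_a : ‖a‖ ≤ ‖z‖ + ε :=
    calc
      ‖a‖ = ‖z + (a - z)‖ := by simp only [add_sub_cancel]
      _ ≤ ‖z‖ + ‖a - z‖ := norm_add_le _ _
      _ ≤ ‖z‖ + ε := by grw [mem_closedBall_iff_norm.1 az]
  -- use the approximation properties to control `(f' x - A) a`, and then `(f' x - A) z` as `z` is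
  -- close to `a`.
  have I : r * ‖(f' x - A) a‖ ≤ r * (δ + ε) * (‖z‖ + ε) :=
    calc
      r * ‖(f' x - A) a‖ = ‖(f' x - A) (r • a)‖ := by
        simp only [map_smul, norm_smul, Real.norm_eq_abs, abs_of_nonneg rpos.le]
      _ = ‖f y - f x - A (y - x) - (f y - f x - (f' x) (y - x))‖ := by
        simp only [ya, add_sub_cancel_left, sub_sub_sub_cancel_left, FunLike.coe_sub,
          Pi.sub_apply, map_smul, smul_sub]
      _ ≤ ‖f y - f x - A (y - x)‖ + ‖f y - f x - (f' x) (y - x)‖ := norm_sub_le _ _
      _ ≤ δ * ‖y - x‖ + ε * ‖y - x‖ := (add_le_add (hf _ ys _ xs) (hρ ⟨rρ hy, ys⟩))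
      _ = r * (δ + ε) * ‖a‖ := by
        simp only [ya, add_sub_cancel_left, norm_smul, Real.norm_eq_abs, abs_of_nonneg rpos.le]
        ring
      _ ≤ r * (δ + ε) * (‖z‖ + ε) := by gcongr
  calc
    ‖(f' x - A) z‖ = ‖(f' x - A) a + (f' x - A) (z - a)‖ := by
      congr 1
      simp only [FunLike.coe_sub, map_sub, Pi.sub_apply]
      abel
    _ ≤ ‖(f' x - A) a‖ + ‖(f' x - A) (z - a)‖ := norm_add_le _ _
    _ ≤ (δ + ε) * (‖z‖ + ε) + ‖f' x - A‖ * ‖z - a‖ := by
      apply add_le_add
      · rw [mul_assoc] at I; exact (mul_le_mul_iff_right₀ rpos).1 I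
      · apply ContinuousLinearMap.le_opNorm
    _ ≤ (δ + ε) * (‖z‖ + ε) + ‖f' x - A‖ * ε := by
      rw [mem_closedBall_iff_norm'] at az
      gcongr

/-!
### Measure zero of the image, over non-measurable sets

If a set has measure `0`, then its image under a differentiable map has measure zero. This doesn't
require the set to be measurable. In the same way, if `f` is differentiable on a set `s` with
non-invertible derivative everywhere, then `f '' s` has measure `0`, again without measurability
assumptions.
-/


/-- A differentiable function maps sets of measure zero to sets of measure zero. -/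
theorem image_null_of_differentiableOn (hf : DifferentiableOn ℝ f s)
    (hs : μ s = 0) : ν (f '' s) = 0 := by
  rw [← nonpos_iff_eq_zero]
  have :
      ∀ A : E m →L[ℝ] F, ∃ δ : ℝ≥0, 0 < δ ∧
        ∀ (t : Set (E m)), ApproximatesLinearOn f A t δ →
          ν (f '' t) ≤ (Real.toNNReal (nd A) + 1 : ℝ≥0) * μ t := by
    intro A
    let c : ℝ≥0 := Real.toNNReal (nd A) + 1
    have I : ENNReal.ofReal (nd A) < c := by
      simp only [c, ENNReal.ofReal, lt_add_iff_pos_right, zero_lt_one, ENNReal.coe_lt_coe]
    rcases ((image_le_mul_of_nd_lt A I).and self_mem_nhdsWithin).exists with ⟨δ, h, h'⟩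
    exact ⟨δ, h', fun t ht => h t f ht⟩
  choose δ hδ using this
  obtain ⟨t, A, _, _, t_cover, ht, -⟩ :
    ∃ (t : ℕ → Set (E m)) (A : ℕ → E m →L[ℝ] F),
      Pairwise (Disjoint on t) ∧
        (∀ n : ℕ, MeasurableSet (t n)) ∧
          (s ⊆ ⋃ n : ℕ, t n) ∧
            (∀ n : ℕ, ApproximatesLinearOn f (A n) (s ∩ t n) (δ (A n))) ∧
              (s.Nonempty → ∀ n, ∃ y ∈ s, A n = fderivWithin ℝ f s y) :=
    exists_partition_approximatesLinearOn_of_hasFDerivWithinAt f s (fderivWithin ℝ f s)
      (fun x xs => (hf x xs).hasFDerivWithinAt) δ fun A => (hδ A).1.ne'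
  calc
    ν (f '' s) ≤ ν (⋃ n, f '' (s ∩ t n)) := by
      apply measure_mono
      rw [← image_iUnion, ← inter_iUnion]
      exact Set.image_mono (subset_inter Subset.rfl t_cover)
    _ ≤ ∑' n, ν (f '' (s ∩ t n)) := measure_iUnion_le _
    _ ≤ ∑' n, (Real.toNNReal (nd (A n)) + 1 : ℝ≥0) * μ (s ∩ t n) := by
      apply ENNReal.tsum_le_tsum fun n => ?_
      apply (hδ (A n)).2
      exact ht n
    _ ≤ ∑' n, ((Real.toNNReal (nd (A n)) + 1 : ℝ≥0) : ℝ≥0∞) * 0 := by
      gcongr with n
      exact le_trans (measure_mono inter_subset_left) (le_of_eq hs)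
    _ = 0 := by simp only [tsum_zero, mul_zero]

/-- A version of **Sard's lemma** in fixed dimension: given a differentiable function from `E`
to `E` and a set where the differential is not invertible, then the image of this set has
zero measure. Here, we give an auxiliary statement towards this result. -/
theorem image_null_of_nd_eq_zero_aux
    (hf' : ∀ x ∈ s, HasFDerivWithinAt f (f' x) s x) (R : ℝ) (hs : s ⊆ closedBall 0 R) (ε : ℝ≥0)
    (εpos : 0 < ε) (h'f' : ∀ x ∈ s, nd (f' x) = 0) : ν (f '' s) ≤ ε * μ (closedBall 0 R) := by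
  rcases eq_empty_or_nonempty s with (rfl | h's); · simp only [measure_empty, zero_le, image_empty]
  have :
      ∀ A : E m →L[ℝ] F, ∃ δ : ℝ≥0, 0 < δ ∧
        ∀ (t : Set (E m)), ApproximatesLinearOn f A t δ →
          ν (f '' t) ≤ (Real.toNNReal (nd A) + ε : ℝ≥0) * μ t := by
    intro A
    let c : ℝ≥0 := Real.toNNReal (nd A) + ε
    have I : ENNReal.ofReal (nd A) < c := by
      simp only [c, ENNReal.ofReal, lt_add_iff_pos_right, εpos, ENNReal.coe_lt_coe]
    rcases ((image_le_mul_of_nd_lt A I).and self_mem_nhdsWithin).exists with ⟨δ, h, h'⟩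
    exact ⟨δ, h', fun t ht => h t f ht⟩
  choose δ hδ using this
  obtain ⟨t, A, t_disj, t_meas, t_cover, ht, Af'⟩ :
    ∃ (t : ℕ → Set (E m)) (A : ℕ → E m →L[ℝ] F),
      Pairwise (Disjoint on t) ∧
        (∀ n : ℕ, MeasurableSet (t n)) ∧
          (s ⊆ ⋃ n : ℕ, t n) ∧
            (∀ n : ℕ, ApproximatesLinearOn f (A n) (s ∩ t n) (δ (A n))) ∧
              (s.Nonempty → ∀ n, ∃ y ∈ s, A n = f' y) :=
    exists_partition_approximatesLinearOn_of_hasFDerivWithinAt f s f' hf' δ fun A => (hδ A).1.ne'
  calc
    ν (f '' s) ≤ ν (⋃ n, f '' (s ∩ t n)) := by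
      rw [← image_iUnion, ← inter_iUnion]
      gcongr
      exact subset_inter Subset.rfl t_cover
    _ ≤ ∑' n, ν (f '' (s ∩ t n)) := measure_iUnion_le _
    _ ≤ ∑' n, (Real.toNNReal (nd (A n)) + ε : ℝ≥0) * μ (s ∩ t n) := by
      gcongr
      exact (hδ (A _)).2 _ (ht _)
    _ = ∑' n, ε * μ (s ∩ t n) := by
      congr with n
      rcases Af' h's n with ⟨y, ys, hy⟩
      simp only [hy, h'f' y ys, Real.toNNReal_zero, abs_zero, zero_add]
    _ ≤ ε * ∑' n, μ (closedBall 0 R ∩ t n) := by
      rw [ENNReal.tsum_mul_left]
      gcongr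
    _ = ε * μ (⋃ n, closedBall 0 R ∩ t n) := by
      rw [measure_iUnion]
      · exact pairwise_disjoint_mono t_disj fun n => inter_subset_right
      · intro n
        exact measurableSet_closedBall.inter (t_meas n)
    _ ≤ ε * μ (closedBall 0 R) := by grw [← inter_iUnion, inter_subset_left]

/-- A version of Sard lemma in fixed dimension: given a differentiable function from `E` to `E` and
a set where the differential is not invertible, then the image of this set has zero measure. -/
theorem image_null_of_nd_eq_zero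
    (hf' : ∀ x ∈ s, HasFDerivWithinAt f (f' x) s x) (h'f' : ∀ x ∈ s, nd (f' x) = 0) :
    ν (f '' s) = 0 := by
  suffices H : ∀ R, ν (f '' (s ∩ closedBall 0 R)) = 0 by
    rw [← nonpos_iff_eq_zero, ← iUnion_inter_closedBall_nat s 0]
    calc
      ν (f '' ⋃ n : ℕ, s ∩ closedBall 0 n) ≤ ∑' n : ℕ, ν (f '' (s ∩ closedBall 0 n)) := by
        rw [image_iUnion]; exact measure_iUnion_le _
      _ ≤ 0 := by simp only [H, tsum_zero, nonpos_iff_eq_zero]
  intro R
  have A : ∀ (ε : ℝ≥0), 0 < ε → ν (f '' (s ∩ closedBall 0 R)) ≤ ε * μ (closedBall 0 R) :=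
    fun ε εpos =>
    image_null_of_nd_eq_zero_aux
      (fun x hx => (hf' x hx.1).mono inter_subset_left) R inter_subset_right ε εpos
      fun x hx => h'f' x hx.1
  have B : Tendsto (fun ε : ℝ≥0 => (ε : ℝ≥0∞) * μ (closedBall 0 R)) (𝓝[>] 0) (𝓝 0) := by
    have :
      Tendsto (fun ε : ℝ≥0 => (ε : ℝ≥0∞) * μ (closedBall 0 R)) (𝓝 0)
        (𝓝 (((0 : ℝ≥0) : ℝ≥0∞) * μ (closedBall 0 R))) :=
      ENNReal.Tendsto.mul_const (ENNReal.tendsto_coe.2 tendsto_id)
        (Or.inr measure_closedBall_lt_top.ne)
    simp only [zero_mul, ENNReal.coe_zero] at this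
    exact Tendsto.mono_left this nhdsWithin_le_nhds
  rw [← nonpos_iff_eq_zero]
  apply ge_of_tendsto B
  filter_upwards [self_mem_nhdsWithin]
  exact A

/-!
### Weak measurability statements

We show that the derivative of a function on a set is almost everywhere measurable, and that the
image `f '' s` is measurable if `f` is injective on `s`. The latter statement follows from the
Lusin-Souslin theorem.
-/


/-- The derivative of a function on a measurable set is almost everywhere measurable on this set
with respect to Lebesgue measure. Note that, in general, it is not genuinely measurable there,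
as `f'` is not unique (but only on a set of measure `0`, as the argument shows). -/
theorem aemeasurable_deriv (hs : MeasurableSet s)
    (hf' : ∀ x ∈ s, HasFDerivWithinAt f (f' x) s x) : AEMeasurable f' ((μ).restrict s) := by
  /- It suffices to show that `f'` can be uniformly approximated by a measurable function.
    Fix `ε > 0`. Thanks to `exists_partition_approximatesLinearOn_of_hasFDerivWithinAt`, one
    can find a countable measurable partition of `s` into sets `s ∩ t n` on which `f` is well
    approximated by linear maps `A n`. On almost all of `s ∩ t n`, it follows from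
    `ApproximatesLinearOn.norm_fderiv_sub_le` that `f'` is uniformly approximated by `A n`, which
    gives the conclusion. -/
  -- fix a precision `ε`
  refine aemeasurable_of_unif_approx fun ε εpos => ?_
  let δ : ℝ≥0 := ⟨ε, le_of_lt εpos⟩
  have δpos : 0 < δ := εpos
  -- partition `s` into sets `s ∩ t n` on which `f` is approximated by linear maps `A n`.
  obtain ⟨t, A, t_disj, t_meas, t_cover, ht, _⟩ :
    ∃ (t : ℕ → Set (E m)) (A : ℕ → E m →L[ℝ] F),
      Pairwise (Disjoint on t) ∧
        (∀ n : ℕ, MeasurableSet (t n)) ∧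
          (s ⊆ ⋃ n : ℕ, t n) ∧
            (∀ n : ℕ, ApproximatesLinearOn f (A n) (s ∩ t n) δ) ∧
              (s.Nonempty → ∀ n, ∃ y ∈ s, A n = f' y) :=
    exists_partition_approximatesLinearOn_of_hasFDerivWithinAt f s f' hf' (fun _ => δ) fun _ =>
      δpos.ne'
  -- define a measurable function `g` which coincides with `A n` on `t n`.
  obtain ⟨g, g_meas, hg⟩ :
      ∃ g : E m → E m →L[ℝ] F, Measurable g ∧ ∀ (n : ℕ) (x : E m), x ∈ t n → g x = A n :=
    exists_measurable_piecewise t t_meas (fun n _ => A n) (fun n => measurable_const) <|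
      t_disj.mono fun i j h => by simp only [h.inter_eq, eqOn_empty]
  refine ⟨g, g_meas.aemeasurable, ?_⟩
  -- reduce to checking that `f'` and `g` are close on almost all of `s ∩ t n`, for all `n`.
  suffices H : ∀ᵐ x : E m ∂sum fun n ↦ (μ).restrict (s ∩ t n), dist (g x) (f' x) ≤ ε by
    have : (μ).restrict s ≤ sum fun n => (μ).restrict (s ∩ t n) := by
      have : s = ⋃ n, s ∩ t n := by
        rw [← inter_iUnion]
        exact Subset.antisymm (subset_inter Subset.rfl t_cover) inter_subset_left
      conv_lhs => rw [this]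
      exact restrict_iUnion_le
    exact ae_mono this H
  -- fix such an `n`.
  refine ae_sum_iff.2 fun n => ?_
  -- on almost all `s ∩ t n`, `f' x` is close to `A n` thanks to
  -- `ApproximatesLinearOn.norm_fderiv_sub_le`.
  have E₁ : ∀ᵐ x : E m ∂(μ).restrict (s ∩ t n), ‖f' x - A n‖₊ ≤ δ :=
    approx_norm_fderiv_sub_le (ht n) (hs.inter (t_meas n)) f' fun x hx =>
      (hf' x hx.1).mono inter_subset_left
  -- moreover, `g x` is equal to `A n` there.
  have E₂ : ∀ᵐ x : E m ∂(μ).restrict (s ∩ t n), g x = A n := by
    suffices H : ∀ᵐ x : E m ∂(μ).restrict (t n), g x = A n from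
      ae_mono (restrict_mono inter_subset_right le_rfl) H
    filter_upwards [ae_restrict_mem (t_meas n)]
    exact hg n
  -- putting these two properties together gives the conclusion.
  filter_upwards [E₁, E₂] with x hx1 hx2
  rw [← nndist_eq_nnnorm] at hx1
  rw [hx2, dist_comm]
  exact hx1

theorem aemeasurable_ofReal_nd (hs : MeasurableSet s)
    (hf' : ∀ x ∈ s, HasFDerivWithinAt f (f' x) s x) :
    AEMeasurable (fun x => ENNReal.ofReal (nd (f' x))) ((μ).restrict s) := by
  apply ENNReal.measurable_ofReal.comp_aemeasurable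
  refine continuous_nd.measurable.comp_aemeasurable ?_
  exact aemeasurable_deriv hs hf'

/-- If a function is differentiable and injective on a measurable set,
then the image is measurable. -/
theorem measurableSet_image_of_deriv (hs : MeasurableSet s)
    (hf' : ∀ x ∈ s, HasFDerivWithinAt f (f' x) s x) (hf : InjOn f s) : MeasurableSet (f '' s) :=
  haveI : DifferentiableOn ℝ f s := fun x hx => (hf' x hx).differentiableWithinAt
  hs.image_of_continuousOn_injOn (DifferentiableOn.continuousOn this) hf

/-- If a function is differentiable and injective on a null measurable set,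
then the image is null measurable. -/
theorem nullMeasurableSet_image_of_deriv (hs : NullMeasurableSet s μ)
    (hf' : ∀ x ∈ s, HasFDerivWithinAt f (f' x) s x) (hf : InjOn f s) :
    NullMeasurableSet (f '' s) ν := by
  rcases hs.exists_measurable_subset_ae_eq with ⟨t, ts, ht, t_eq_s⟩
  have A : f '' s =ᵐ[ν] f '' t := by
    have : s = t ∪ (s \ t) := by simp [union_eq_self_of_subset_left ts]
    rw [this, image_union]
    refine union_ae_eq_left_of_ae_eq_empty (ae_eq_empty.mpr ?_)
    apply image_null_of_differentiableOn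
      (fun x hx ↦ ?_) (ae_eq_set.1 t_eq_s).2
    exact (hf' x hx.1).differentiableWithinAt.mono sdiff_subset
  apply NullMeasurableSet.congr _ A.symm
  apply MeasurableSet.nullMeasurableSet
  apply measurableSet_image_of_deriv ht _ (hf.mono ts) (f' := f')
  intro x hx
  exact (hf' x (ts hx)).mono ts

/-- If a function is differentiable and injective on a measurable set `s`, then its restriction
to `s` is a measurable embedding. -/
theorem measurableEmbedding_of_deriv (hs : MeasurableSet s)
    (hf' : ∀ x ∈ s, HasFDerivWithinAt f (f' x) s x) (hf : InjOn f s) :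
    MeasurableEmbedding (s.domRestrict f) :=
  haveI : DifferentiableOn ℝ f s := fun x hx => (hf' x hx).differentiableWithinAt
  this.continuousOn.measurableEmbedding hs hf

/-!
### Proving the estimate for the measure of the image

We show the formula `∫⁻ x in s, ENNReal.ofReal (nd (f' x)) ∂μ = ν (f '' s)`,
in `lintegral_nd_eq_image`. For this, we show both inequalities in both
directions, first up to controlled errors and then letting these errors tend to `0`.
-/


theorem image_le_lintegral_nd_aux1 (hs : MeasurableSet s)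
    (hf' : ∀ x ∈ s, HasFDerivWithinAt f (f' x) s x) {ε : ℝ≥0} (εpos : 0 < ε) :
    ν (f '' s) ≤ (∫⁻ x in s, ENNReal.ofReal (nd (f' x)) ∂μ) + 2 * ε * μ s := by
  /- To bound `ν (f '' s)`, we cover `s` by sets where `f` is well-approximated by linear maps
    `A n` (and where `f'` is almost everywhere close to `A n`), and then use that `f` expands the
    measure of such a set by at most `(A n).det + ε`. -/
  have :
    ∀ A : E m →L[ℝ] F,
      ∃ δ : ℝ≥0,
        0 < δ ∧
          (∀ B : E m →L[ℝ] F, ‖B - A‖ ≤ δ → |nd B - (nd A)| ≤ ε) ∧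
            ∀ (t : Set (E m)) (g : E m → F), ApproximatesLinearOn g A t δ →
              ν (g '' t) ≤ (ENNReal.ofReal (nd A) + ε) * μ t := by
    intro A
    let c : ℝ≥0 := Real.toNNReal (nd A) + ε
    have I : ENNReal.ofReal (nd A) < c := by
      simp only [c, ENNReal.ofReal, lt_add_iff_pos_right, εpos, ENNReal.coe_lt_coe]
    rcases ((image_le_mul_of_nd_lt A I).and self_mem_nhdsWithin).exists with ⟨δ, h, δpos⟩
    obtain ⟨δ', δ'pos, hδ'⟩ : ∃ (δ' : ℝ), 0 < δ' ∧ ∀ B, dist B A < δ' → dist (nd B) (nd A) < ↑ε := by
      refine continuousAt_iff.1 ?_ ε εpos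
      exact continuous_nd.continuousAt
    let δ'' : ℝ≥0 := ⟨δ' / 2, (half_pos δ'pos).le⟩
    refine ⟨min δ δ'', lt_min δpos (half_pos δ'pos), ?_, ?_⟩
    · intro B hB
      rw [← Real.dist_eq]
      apply (hδ' B _).le
      rw [dist_eq_norm]
      calc
        ‖B - A‖ ≤ (min δ δ'' : ℝ≥0) := hB
        _ ≤ δ'' := by simp only [le_refl, NNReal.coe_min, min_le_iff, or_true]
        _ < δ' := half_lt_self δ'pos
    · intro t g htg
      exact h t g (htg.mono_num (min_le_left _ _))
  choose δ hδ using this
  obtain ⟨t, A, t_disj, t_meas, t_cover, ht, -⟩ :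
    ∃ (t : ℕ → Set (E m)) (A : ℕ → E m →L[ℝ] F),
      Pairwise (Disjoint on t) ∧
        (∀ n : ℕ, MeasurableSet (t n)) ∧
          (s ⊆ ⋃ n : ℕ, t n) ∧
            (∀ n : ℕ, ApproximatesLinearOn f (A n) (s ∩ t n) (δ (A n))) ∧
              (s.Nonempty → ∀ n, ∃ y ∈ s, A n = f' y) :=
    exists_partition_approximatesLinearOn_of_hasFDerivWithinAt f s f' hf' δ fun A => (hδ A).1.ne'
  calc
    ν (f '' s) ≤ ν (⋃ n, f '' (s ∩ t n)) := by
      apply measure_mono
      rw [← image_iUnion, ← inter_iUnion]
      exact Set.image_mono (subset_inter Subset.rfl t_cover)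
    _ ≤ ∑' n, ν (f '' (s ∩ t n)) := measure_iUnion_le _
    _ ≤ ∑' n, (ENNReal.ofReal (nd (A n)) + ε) * μ (s ∩ t n) := by
      apply ENNReal.tsum_le_tsum fun n => ?_
      apply (hδ (A n)).2.2
      exact ht n
    _ = ∑' n, ∫⁻ _ in s ∩ t n, ENNReal.ofReal (nd (A n)) + ε ∂μ := by
      simp only [lintegral_const, MeasurableSet.univ, Measure.restrict_apply, univ_inter]
    _ ≤ ∑' n, ∫⁻ x in s ∩ t n, ENNReal.ofReal (nd (f' x)) + 2 * ε ∂μ := by
      apply ENNReal.tsum_le_tsum fun n => ?_
      apply lintegral_mono_ae
      filter_upwards [approx_norm_fderiv_sub_le (ht n) (hs.inter (t_meas n)) f' fun x hx =>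
          (hf' x hx.1).mono inter_subset_left]
      intro x hx
      have I : (nd (A n)) ≤ (nd (f' x)) + ε := by
        have h0 := abs_le.1 ((hδ (A n)).2.1 _ hx)
        linarith [h0.1]
      calc
        ENNReal.ofReal (nd (A n)) + ε ≤ ENNReal.ofReal (nd (f' x) + ε) + ε := by gcongr
        _ = ENNReal.ofReal (nd (f' x)) + 2 * ε := by
          simp only [ENNReal.ofReal_add, nd_nonneg, two_mul, add_assoc, NNReal.zero_le_coe,
            ENNReal.ofReal_coe_nnreal]
    _ = ∫⁻ x in ⋃ n, s ∩ t n, ENNReal.ofReal (nd (f' x)) + 2 * ε ∂μ := by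
      have M : ∀ n : ℕ, MeasurableSet (s ∩ t n) := fun n => hs.inter (t_meas n)
      rw [lintegral_iUnion M]
      exact pairwise_disjoint_mono t_disj fun n => inter_subset_right
    _ = ∫⁻ x in s, ENNReal.ofReal (nd (f' x)) + 2 * ε ∂μ := by
      rw [← inter_iUnion, inter_eq_self_of_subset_left t_cover]
    _ = (∫⁻ x in s, ENNReal.ofReal (nd (f' x)) ∂μ) + 2 * ε * μ s := by
      simp only [lintegral_add_right' _ aemeasurable_const, setLIntegral_const]

theorem image_le_lintegral_nd_aux2 (hs : MeasurableSet s) (h's : μ s ≠ ∞)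
    (hf' : ∀ x ∈ s, HasFDerivWithinAt f (f' x) s x) :
    ν (f '' s) ≤ ∫⁻ x in s, ENNReal.ofReal (nd (f' x)) ∂μ := by
  -- We just need to let the error tend to `0` in the previous lemma.
  have :
    Tendsto (fun ε : ℝ≥0 => (∫⁻ x in s, ENNReal.ofReal (nd (f' x)) ∂μ) + 2 * ε * μ s) (𝓝[>] 0)
      (𝓝 ((∫⁻ x in s, ENNReal.ofReal (nd (f' x)) ∂μ) + 2 * (0 : ℝ≥0) * μ s)) := by
    apply Tendsto.mono_left _ nhdsWithin_le_nhds
    refine tendsto_const_nhds.add ?_
    refine ENNReal.Tendsto.mul_const ?_ (Or.inr h's)
    exact ENNReal.Tendsto.const_mul (ENNReal.tendsto_coe.2 tendsto_id) (Or.inr ENNReal.coe_ne_top)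
  simp only [add_zero, zero_mul, mul_zero, ENNReal.coe_zero] at this
  apply ge_of_tendsto this
  filter_upwards [self_mem_nhdsWithin]
  intro ε εpos
  rw [mem_Ioi] at εpos
  exact image_le_lintegral_nd_aux1 hs hf' εpos

theorem image_le_lintegral_nd (hs : MeasurableSet s)
    (hf' : ∀ x ∈ s, HasFDerivWithinAt f (f' x) s x) :
    ν (f '' s) ≤ ∫⁻ x in s, ENNReal.ofReal (nd (f' x)) ∂μ := by
  /- We already know the result for finite-measure sets. We cover `s` by finite-measure sets using
    `spanningSets μ`, and apply the previous result to each of these parts. -/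
  let u n := disjointed (spanningSets μ) n
  have u_meas : ∀ n, MeasurableSet (u n) := by
    intro n
    apply MeasurableSet.disjointed fun i => ?_
    exact measurableSet_spanningSets μ i
  have A : s = ⋃ n, s ∩ u n := by
    rw [← inter_iUnion, iUnion_disjointed, iUnion_spanningSets, inter_univ]
  calc
    ν (f '' s) ≤ ∑' n, ν (f '' (s ∩ u n)) := by
      conv_lhs => rw [A, image_iUnion]
      exact measure_iUnion_le _
    _ ≤ ∑' n, ∫⁻ x in s ∩ u n, ENNReal.ofReal (nd (f' x)) ∂μ := by
      apply ENNReal.tsum_le_tsum fun n => ?_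
      apply
        image_le_lintegral_nd_aux2 (hs.inter (u_meas n)) _ fun x hx =>
          (hf' x hx.1).mono inter_subset_left
      have : μ (u n) < ∞ :=
        lt_of_le_of_lt (measure_mono (disjointed_subset _ _)) (measure_spanningSets_lt_top μ n)
      exact ne_of_lt (lt_of_le_of_lt (measure_mono inter_subset_right) this)
    _ = ∫⁻ x in s, ENNReal.ofReal (nd (f' x)) ∂μ := by
      conv_rhs => rw [A]
      rw [lintegral_iUnion]
      · intro n; exact hs.inter (u_meas n)
      · exact pairwise_disjoint_mono (disjoint_disjointed _) fun n => inter_subset_right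

theorem lintegral_nd_le_image_aux1 (hs : MeasurableSet s)
    (hf' : ∀ x ∈ s, HasFDerivWithinAt f (f' x) s x) (hf : InjOn f s) {ε : ℝ≥0} (εpos : 0 < ε) :
    (∫⁻ x in s, ENNReal.ofReal (nd (f' x)) ∂μ) ≤ ν (f '' s) + 2 * ε * μ s := by
  /- To bound `∫⁻ x in s, ENNReal.ofReal (nd (f' x)) ∂μ`, we cover `s` by sets where `f` is
    well-approximated by linear maps `A n` (and where `f'` is almost everywhere close to `A n`),
    and then use that `f` expands the measure of such a set by at least `(A n).det - ε`. -/
  have :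
    ∀ A : E m →L[ℝ] F,
      ∃ δ : ℝ≥0,
        0 < δ ∧
          (∀ B : E m →L[ℝ] F, ‖B - A‖ ≤ δ → |nd B - (nd A)| ≤ ε) ∧
            ∀ (t : Set (E m)) (g : E m → F), ApproximatesLinearOn g A t δ →
              ENNReal.ofReal (nd A) * μ t ≤ ν (g '' t) + ε * μ t := by
    intro A
    obtain ⟨δ', δ'pos, hδ'⟩ : ∃ (δ' : ℝ), 0 < δ' ∧ ∀ B, dist B A < δ' → dist (nd B) (nd A) < ↑ε := by
      refine continuousAt_iff.1 ?_ ε εpos
      exact continuous_nd.continuousAt
    let δ'' : ℝ≥0 := ⟨δ' / 2, (half_pos δ'pos).le⟩
    have I'' : ∀ B : E m →L[ℝ] F, ‖B - A‖ ≤ ↑δ'' → |nd B - (nd A)| ≤ ↑ε := by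
      intro B hB
      rw [← Real.dist_eq]
      apply (hδ' B _).le
      rw [dist_eq_norm]
      exact hB.trans_lt (half_lt_self δ'pos)
    rcases eq_or_ne (nd A) 0 with (hA | hA)
    · refine ⟨δ'', half_pos δ'pos, I'', ?_⟩
      simp only [hA, forall_const, zero_mul, ENNReal.ofReal_zero, imp_true_iff,
        zero_le, abs_zero]
    let c : ℝ≥0 := Real.toNNReal (nd A) - ε
    have I : (c : ℝ≥0∞) < ENNReal.ofReal (nd A) := by
      simp only [c, ENNReal.ofReal, ENNReal.coe_sub]
      apply ENNReal.sub_lt_self ENNReal.coe_ne_top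
      · simp only [Real.toNNReal_eq_zero, ENNReal.coe_eq_zero, Ne, not_le]
        exact lt_of_le_of_ne (nd_nonneg A) (Ne.symm hA)
      · simp only [εpos.ne', ENNReal.coe_eq_zero, Ne, not_false_iff]
    rcases ((mul_le_image_of_lt_nd A I).and self_mem_nhdsWithin).exists with ⟨δ, h, δpos⟩
    refine ⟨min δ δ'', lt_min δpos (half_pos δ'pos), ?_, ?_⟩
    · intro B hB
      apply I'' _ (hB.trans _)
      simp only [le_refl, NNReal.coe_min, min_le_iff, or_true]
    · intro t g htg
      rcases eq_or_ne (μ t) ∞ with (ht | ht)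
      · simp only [ht, εpos.ne', ENNReal.mul_top, ENNReal.coe_eq_zero, le_top, Ne,
          not_false_iff, _root_.add_top]
      have := h t g (htg.mono_num (min_le_left _ _))
      rwa [ENNReal.coe_sub, ENNReal.sub_mul, tsub_le_iff_right] at this
      simp only [ht, imp_true_iff, Ne, not_false_iff]
  choose δ hδ using this
  obtain ⟨t, A, t_disj, t_meas, t_cover, ht, -⟩ :
    ∃ (t : ℕ → Set (E m)) (A : ℕ → E m →L[ℝ] F),
      Pairwise (Disjoint on t) ∧
        (∀ n : ℕ, MeasurableSet (t n)) ∧
          (s ⊆ ⋃ n : ℕ, t n) ∧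
            (∀ n : ℕ, ApproximatesLinearOn f (A n) (s ∩ t n) (δ (A n))) ∧
              (s.Nonempty → ∀ n, ∃ y ∈ s, A n = f' y) :=
    exists_partition_approximatesLinearOn_of_hasFDerivWithinAt f s f' hf' δ fun A => (hδ A).1.ne'
  have s_eq : s = ⋃ n, s ∩ t n := by
    rw [← inter_iUnion]
    exact Subset.antisymm (subset_inter Subset.rfl t_cover) inter_subset_left
  calc
    (∫⁻ x in s, ENNReal.ofReal (nd (f' x)) ∂μ) =
        ∑' n, ∫⁻ x in s ∩ t n, ENNReal.ofReal (nd (f' x)) ∂μ := by
      conv_lhs => rw [s_eq]
      rw [lintegral_iUnion]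
      · exact fun n => hs.inter (t_meas n)
      · exact pairwise_disjoint_mono t_disj fun n => inter_subset_right
    _ ≤ ∑' n, ∫⁻ _ in s ∩ t n, ENNReal.ofReal (nd (A n)) + ε ∂μ := by
      apply ENNReal.tsum_le_tsum fun n => ?_
      apply lintegral_mono_ae
      filter_upwards [approx_norm_fderiv_sub_le (ht n) (hs.inter (t_meas n)) f' fun x hx =>
          (hf' x hx.1).mono inter_subset_left]
      intro x hx
      have I : (nd (f' x)) ≤ (nd (A n)) + ε := by
        have h0 := abs_le.1 ((hδ (A n)).2.1 _ hx)
        linarith [h0.2]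
      calc
        ENNReal.ofReal (nd (f' x)) ≤ ENNReal.ofReal (nd (A n) + ε) :=
          ENNReal.ofReal_le_ofReal I
        _ = ENNReal.ofReal (nd (A n)) + ε := by
          simp only [ENNReal.ofReal_add, nd_nonneg, NNReal.zero_le_coe, ENNReal.ofReal_coe_nnreal]
    _ = ∑' n, (ENNReal.ofReal (nd (A n)) * μ (s ∩ t n) + ε * μ (s ∩ t n)) := by
      simp only [setLIntegral_const, lintegral_add_right _ measurable_const]
    _ ≤ ∑' n, (ν (f '' (s ∩ t n)) + ε * μ (s ∩ t n) + ε * μ (s ∩ t n)) := by
      gcongr
      exact (hδ (A _)).2.2 _ _ (ht _)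
    _ = ν (f '' s) + 2 * ε * μ s := by
      conv_rhs => rw [s_eq]
      rw [image_iUnion, measure_iUnion]; rotate_left
      · intro i j hij
        apply Disjoint.image _ hf inter_subset_left inter_subset_left
        exact Disjoint.mono inter_subset_right inter_subset_right (t_disj hij)
      · intro i
        exact
          measurableSet_image_of_deriv (hs.inter (t_meas i))
            (fun x hx => (hf' x hx.1).mono inter_subset_left)
            (hf.mono inter_subset_left)
      rw [measure_iUnion]; rotate_left
      · exact pairwise_disjoint_mono t_disj fun i => inter_subset_right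
      · exact fun i => hs.inter (t_meas i)
      rw [← ENNReal.tsum_mul_left, ← ENNReal.tsum_add]
      congr 1
      ext1 i
      rw [mul_assoc, two_mul, add_assoc]

theorem lintegral_nd_le_image_aux2 (hs : MeasurableSet s) (h's : μ s ≠ ∞)
    (hf' : ∀ x ∈ s, HasFDerivWithinAt f (f' x) s x) (hf : InjOn f s) :
    (∫⁻ x in s, ENNReal.ofReal (nd (f' x)) ∂μ) ≤ ν (f '' s) := by
  -- We just need to let the error tend to `0` in the previous lemma.
  have :
    Tendsto (fun ε : ℝ≥0 => ν (f '' s) + 2 * ε * μ s) (𝓝[>] 0)
      (𝓝 (ν (f '' s) + 2 * (0 : ℝ≥0) * μ s)) := by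
    apply Tendsto.mono_left _ nhdsWithin_le_nhds
    refine tendsto_const_nhds.add ?_
    refine ENNReal.Tendsto.mul_const ?_ (Or.inr h's)
    exact ENNReal.Tendsto.const_mul (ENNReal.tendsto_coe.2 tendsto_id) (Or.inr ENNReal.coe_ne_top)
  simp only [add_zero, zero_mul, mul_zero, ENNReal.coe_zero] at this
  apply ge_of_tendsto this
  filter_upwards [self_mem_nhdsWithin]
  intro ε εpos
  rw [mem_Ioi] at εpos
  exact lintegral_nd_le_image_aux1 hs hf' hf εpos

theorem lintegral_nd_le_image (hs : MeasurableSet s)
    (hf' : ∀ x ∈ s, HasFDerivWithinAt f (f' x) s x) (hf : InjOn f s) :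
    (∫⁻ x in s, ENNReal.ofReal (nd (f' x)) ∂μ) ≤ ν (f '' s) := by
  /- We already know the result for finite-measure sets. We cover `s` by finite-measure sets using
    `spanningSets μ`, and apply the previous result to each of these parts. -/
  let u n := disjointed (spanningSets μ) n
  have u_meas : ∀ n, MeasurableSet (u n) := by
    intro n
    apply MeasurableSet.disjointed fun i => ?_
    exact measurableSet_spanningSets μ i
  have A : s = ⋃ n, s ∩ u n := by
    rw [← inter_iUnion, iUnion_disjointed, iUnion_spanningSets, inter_univ]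
  calc
    (∫⁻ x in s, ENNReal.ofReal (nd (f' x)) ∂μ) =
        ∑' n, ∫⁻ x in s ∩ u n, ENNReal.ofReal (nd (f' x)) ∂μ := by
      conv_lhs => rw [A]
      rw [lintegral_iUnion]
      · intro n; exact hs.inter (u_meas n)
      · exact pairwise_disjoint_mono (disjoint_disjointed _) fun n => inter_subset_right
    _ ≤ ∑' n, ν (f '' (s ∩ u n)) := by
      apply ENNReal.tsum_le_tsum fun n => ?_
      apply
        lintegral_nd_le_image_aux2 (hs.inter (u_meas n)) _
          (fun x hx => (hf' x hx.1).mono inter_subset_left) (hf.mono inter_subset_left)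
      have : μ (u n) < ∞ :=
        lt_of_le_of_lt (measure_mono (disjointed_subset _ _)) (measure_spanningSets_lt_top μ n)
      exact ne_of_lt (lt_of_le_of_lt (measure_mono inter_subset_right) this)
    _ = ν (f '' s) := by
      conv_rhs => rw [A, image_iUnion]
      rw [measure_iUnion]
      · intro i j hij
        apply Disjoint.image _ hf inter_subset_left inter_subset_left
        exact
          Disjoint.mono inter_subset_right inter_subset_right
            (disjoint_disjointed _ hij)
      · intro i
        exact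
          measurableSet_image_of_deriv (hs.inter (u_meas i))
            (fun x hx => (hf' x hx.1).mono inter_subset_left)
            (hf.mono inter_subset_left)

/-- Change of variable formula for differentiable functions, set version: if a function `f` is
injective and differentiable on a measurable set `s`, then the measure of `f '' s` is given by the
integral of `(nd (f' x))` on `s`.
Note that the measurability of `f '' s` is given by `measurableSet_image_of_deriv`. -/
theorem lintegral_nd_eq_image (hs : MeasurableSet s)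
    (hf' : ∀ x ∈ s, HasFDerivWithinAt f (f' x) s x) (hf : InjOn f s) :
    (∫⁻ x in s, ENNReal.ofReal (nd (f' x)) ∂μ) = ν (f '' s) :=
  le_antisymm (lintegral_nd_le_image hs hf' hf)
    (image_le_lintegral_nd hs hf')

/-- Change of variable formula for differentiable functions, set version: if a function `f` is
injective and differentiable on a null measurable set `s`, then the measure of `f '' s` is given
by the integral of `(nd (f' x))` on `s`.
Note that the null-measurability of `f '' s` is given by `nullMeasurableSet_image_of_deriv`. -/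
theorem lintegral_nd_eq_image₀ (hs : NullMeasurableSet s μ)
    (hf' : ∀ x ∈ s, HasFDerivWithinAt f (f' x) s x) (hf : InjOn f s) :
    (∫⁻ x in s, ENNReal.ofReal (nd (f' x)) ∂μ) = ν (f '' s) := by
  rcases hs.exists_measurable_subset_ae_eq with ⟨t, ts, ht, t_eq_s⟩
  have A : ν (f '' s) = ν (f '' t) := by
    apply measure_congr
    have : s = t ∪ (s \ t) := by simp [union_eq_self_of_subset_left ts]
    rw [this, image_union]
    refine union_ae_eq_left_of_ae_eq_empty (ae_eq_empty.mpr ?_)
    apply image_null_of_differentiableOn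
      (fun x hx ↦ ?_) (ae_eq_set.1 t_eq_s).2
    exact (hf' x hx.1).differentiableWithinAt.mono sdiff_subset
  have B : (∫⁻ x in s, ENNReal.ofReal (nd (f' x)) ∂μ)
      = (∫⁻ x in t, ENNReal.ofReal (nd (f' x)) ∂μ) :=
    setLIntegral_congr t_eq_s.symm
  rw [A, B, lintegral_nd_eq_image ht _ (hf.mono ts)]
  intro x hx
  exact (hf' x (ts hx)).mono ts

/-- Change of variable formula for differentiable functions, set version: if a function `f` is
injective and differentiable on a null measurable set `s`, then the pushforward of the measure with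
density `(nd (f' x))` on `s` is the Lebesgue measure on the image set. -/
theorem map_withDensity_nd_eq (hs : NullMeasurableSet s μ)
    (hf' : ∀ x ∈ s, HasFDerivWithinAt f (f' x) s x) (hf : InjOn f s) :
    Measure.map f (((μ).restrict s).withDensity fun x => ENNReal.ofReal (nd (f' x))) =
      (ν).restrict (f '' s) := by
  have h'f : AEMeasurable f ((μ).restrict s) := by
    apply ContinuousOn.aemeasurable₀ (fun x hx ↦ ?_) hs
    exact (hf' x hx).differentiableWithinAt.continuousWithinAt
  have h''f : AEMeasurable f (((μ).restrict s).withDensity fun x => ENNReal.ofReal (nd (f' x))) := by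
    apply h'f.mono_ac
    exact withDensity_absolutelyContinuous _ _
  apply Measure.ext fun t ht => ?_
  have h't : NullMeasurableSet (f ⁻¹' t) ((μ).restrict s) := h'f.nullMeasurableSet_preimage ht
  rw [map_apply_of_aemeasurable h''f ht, withDensity_apply₀ _ h't,
    Measure.restrict_apply ht, restrict_restrict₀ h't,
    lintegral_nd_eq_image₀ ((nullMeasurableSet_restrict hs).1 h't)
      (fun x hx => (hf' x hx.2).mono inter_subset_right) (hf.mono inter_subset_right),
    image_preimage_inter]

/-- Change of variable formula for differentiable functions, set version: if a function `f` is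
injective and differentiable on a measurable set `s`, then the pushforward of the measure with
density `(nd (f' x))` on `s` is the Lebesgue measure on the image set. This version is expressed
in terms of the restricted function `s.domRestrict f`.
For a version for the original function, see `map_withDensity_nd_eq`.
-/
theorem restrict_map_withDensity_nd_eq (hs : MeasurableSet s)
    (hf' : ∀ x ∈ s, HasFDerivWithinAt f (f' x) s x) (hf : InjOn f s) :
    Measure.map (s.domRestrict f)
        (comap (↑) ((μ).withDensity fun x => ENNReal.ofReal (nd (f' x)))) =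
      (ν).restrict (f '' s) := by
  obtain ⟨u, u_meas, uf⟩ : ∃ u, Measurable u ∧ EqOn u f s := by
    classical
    refine ⟨piecewise s f 0, ?_, piecewise_eqOn _ _ _⟩
    refine ContinuousOn.measurable_piecewise ?_ continuous_zero.continuousOn hs
    have : DifferentiableOn ℝ f s := fun x hx => (hf' x hx).differentiableWithinAt
    exact this.continuousOn
  have u' : ∀ x ∈ s, HasFDerivWithinAt u (f' x) s x := fun x hx =>
    (hf' x hx).congr (fun y hy => uf hy) (uf hx)
  set G : s → F := u ∘ (↑) with hF
  have A :
    Measure.map G (comap (↑) ((μ).withDensity fun x => ENNReal.ofReal (nd (f' x)))) =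
      (ν).restrict (u '' s) := by
    rw [hF, ← Measure.map_map u_meas measurable_subtype_coe, map_comap_subtype_coe hs,
      restrict_withDensity hs]
    exact map_withDensity_nd_eq hs.nullMeasurableSet u' (hf.congr uf.symm)
  rw [uf.image_eq] at A
  have : G = s.domRestrict f := by
    ext x
    exact uf x.2
  rwa [this] at A

/-! ### Change of variable formulas in integrals -/


/-- Change of variable formula for differentiable functions: if a function `f` is
injective and differentiable on a measurable set `s`, then the Lebesgue integral of a function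
`g : E → ℝ≥0∞` on `f '' s` coincides with the integral of `(nd (f' x)) * g ∘ f` on `s`.
Note that the measurability of `f '' s` is given by `measurableSet_image_of_deriv`. -/
theorem lintegral_image_eq_lintegral_nd_mul (hs : MeasurableSet s)
    (hf' : ∀ x ∈ s, HasFDerivWithinAt f (f' x) s x) (hf : InjOn f s) (g : F → ℝ≥0∞) :
    ∫⁻ x in f '' s, g x ∂ν = ∫⁻ x in s, ENNReal.ofReal (nd (f' x)) * g (f x) ∂μ := by
  rw [← restrict_map_withDensity_nd_eq hs hf' hf,
    (measurableEmbedding_of_deriv hs hf' hf).lintegral_map]
  simp only [Set.domRestrict_apply, ← Function.comp_apply (f := g)]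
  rw [← (MeasurableEmbedding.subtype_coe hs).lintegral_map, map_comap_subtype_coe hs,
    setLIntegral_withDensity_eq_setLIntegral_mul_non_measurable₀ _ _ _ hs]
  · simp only [Pi.mul_apply]
  · simp only [eventually_true, ENNReal.ofReal_lt_top]
  · exact aemeasurable_ofReal_nd hs hf'

end Claimed.Agent.R322.Base.Area
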