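import Claimed.Agent.R322.Base.Area.Lin

/-!
# Row 322, Base/Area/Approx: images of sets under maps which are close to a linear map

The analogues, for maps `E m → F` and the Hausdorff measure `μH[m]`, of Mathlib's
`addHaar_image_le_mul_of_det_lt` and `mul_le_addHaar_image_of_lt_det`.
-/

set_option autoImplicit false
set_option linter.unusedSectionVars false

open scoped ENNReal NNReal Topology
open MeasureTheory Set Filter

namespace Claimed.Agent.R322.Base.Area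

/-- **Comparison lemma.**  If `edist (g x) (g y) ≤ K * edist (f x) (f y)` on `s` then
`μH[d] (g '' s) ≤ K ^ d * μH[d] (f '' s)`.
Proof: `φ := g ∘ Function.invFunOn f s` is `K`-Lipschitz on `f '' s` and `φ '' (f '' s) = g '' s`;
`LipschitzOnWith.hausdorffMeasure_image_le`. -/
theorem hausdorffMeasure_image_le_of_edist_le {X Y Z : Type*} [EMetricSpace Y] [EMetricSpace Z]
    [MeasurableSpace Y] [BorelSpace Y] [MeasurableSpace Z] [BorelSpace Z]
    (f : X → Y) (g : X → Z) (s : Set X) (K : ℝ≥0) {d : ℝ} (hd : 0 ≤ d)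
    (h : ∀ x ∈ s, ∀ y ∈ s, edist (g x) (g y) ≤ K * edist (f x) (f y)) :
    μH[d] (g '' s) ≤ (K : ℝ≥0∞) ^ d * μH[d] (f '' s) := by
  classical
  rcases s.eq_empty_or_nonempty with rfl | hne
  · simp
  have : Nonempty X := ⟨hne.some⟩
  set φ : Y → Z := fun u => g (Function.invFunOn f s u) with hφdef
  have hφ : LipschitzOnWith K φ (f '' s) := by
    intro u hu v hv
    have hu1 := Function.invFunOn_mem hu
    have hu2 := Function.invFunOn_eq hu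
    have hv1 := Function.invFunOn_mem hv
    have hv2 := Function.invFunOn_eq hv
    calc edist (φ u) (φ v) ≤ K * edist (f (Function.invFunOn f s u))
          (f (Function.invFunOn f s v)) := h _ hu1 _ hv1
      _ = K * edist u v := by rw [hu2, hv2]
  have himg : g '' s ⊆ φ '' (f '' s) := by
    rintro _ ⟨x, hx, rfl⟩
    have hu : f x ∈ f '' s := ⟨x, hx, rfl⟩
    refine ⟨f x, hu, ?_⟩
    have h1 := h _ (Function.invFunOn_mem hu) _ hx
    rw [Function.invFunOn_eq hu, edist_self, mul_zero] at h1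
    exact edist_le_zero.1 h1
  calc μH[d] (g '' s) ≤ μH[d] (φ '' (f '' s)) := measure_mono himg
    _ ≤ (K : ℝ≥0∞) ^ d * μH[d] (f '' s) := hφ.hausdorffMeasure_image_le hd

/-- from norms to extended distances. -/
theorem edist_le_mul_edist_of_norm_le {V W : Type*} [SeminormedAddCommGroup V]
    [SeminormedAddCommGroup W] {a b : V} {c d : W} {K : ℝ≥0}
    (h : ‖a - b‖ ≤ K * ‖c - d‖) : edist a b ≤ K * edist c d := by
  rw [edist_nndist, edist_nndist, ← ENNReal.coe_mul, ENNReal.coe_le_coe, ← NNReal.coe_le_coe]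
  push_cast
  rw [dist_eq_norm, dist_eq_norm]
  exact h

variable {m : ℕ} {F : Type*} [NormedAddCommGroup F] [InnerProductSpace ℝ F]
  [FiniteDimensional ℝ F] [MeasurableSpace F] [BorelSpace F]

/-- a map which is close to an injective linear map is injective. -/
theorem exists_injOn_of_approx (A : E m →L[ℝ] F) (hA : Function.Injective A) :
    ∃ δ : ℝ≥0, 0 < δ ∧ ∀ (s : Set (E m)) (f : E m → F), ApproximatesLinearOn f A s δ →
      InjOn f s := by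
  obtain ⟨σ, hσ, hA'⟩ := exists_lower_bound A hA
  refine ⟨⟨σ / 2, (half_pos hσ).le⟩, half_pos hσ, fun s f hf x hx y hy hxy => ?_⟩
  have h1 := hf x hx y hy
  rw [hxy, sub_self, zero_sub, norm_neg] at h1
  have h2 := hA' (x - y)
  have h3 : ‖x - y‖ ≤ 0 := by
    have h4 : σ * ‖x - y‖ ≤ σ / 2 * ‖x - y‖ := h2.trans h1
    nlinarith [norm_nonneg (x - y)]
  exact sub_eq_zero.1 (norm_le_zero_iff.1 h3)

/-- upper bound, injective case.  With `σ ‖v‖ ≤ ‖A v‖`: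
`‖f x - f y‖ ≤ (1 + δ/σ) ‖A x - A y‖`; comparison lemma and `hausdorffMeasure_image_clm`. -/
theorem image_le_mul_of_nd_lt_of_injective (A : E m →L[ℝ] F) (hA : Function.Injective A)
    {c : ℝ≥0} (hc : ENNReal.ofReal (nd A) < c) :
    ∀ᶠ δ in 𝓝[>] (0 : ℝ≥0), ∀ (s : Set (E m)) (f : E m → F), ApproximatesLinearOn f A s δ →
      μH[(m : ℝ)] (f '' s) ≤ c * μH[(m : ℝ)] s := by
  obtain ⟨σ, hσ, hA'⟩ := exists_lower_bound A hA
  set σ' : ℝ≥0 := ⟨σ, hσ.le⟩ with hσ'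
  have hT : Tendsto (fun δ : ℝ≥0 => ((1 + δ * σ'⁻¹ : ℝ≥0) : ℝ≥0∞) ^ (m : ℝ) *
      ENNReal.ofReal (nd A)) (𝓝 0) (𝓝 (((1 + 0 * σ'⁻¹ : ℝ≥0) : ℝ≥0∞) ^ (m : ℝ) *
      ENNReal.ofReal (nd A))) := by
    refine ENNReal.Tendsto.mul_const ?_ (Or.inr ENNReal.ofReal_ne_top)
    refine (ENNReal.continuous_rpow_const.tendsto _).comp ?_
    refine ENNReal.tendsto_coe.2 ?_
    exact (Continuous.tendsto (by fun_prop) 0)
  simp only [zero_mul, add_zero, ENNReal.coe_one, ENNReal.one_rpow, one_mul] at hT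
  have hev := (tendsto_order.1 hT).2 _ hc
  filter_upwards [hev.filter_mono nhdsWithin_le_nhds] with δ hδ s f hf
  have hcmp : ∀ x ∈ s, ∀ y ∈ s, edist (f x) (f y) ≤ (1 + δ * σ'⁻¹ : ℝ≥0) * edist (A x) (A y) := by
    intro x hx y hy
    refine edist_le_mul_edist_of_norm_le ?_
    have h1 := hf x hx y hy
    have h2 := hA' (x - y)
    rw [map_sub] at h2
    have h3 : ‖f x - f y‖ ≤ ‖A x - A y‖ + δ * ‖x - y‖ := by
      have : f x - f y = (A x - A y) + (f x - f y - A (x - y)) := by rw [map_sub]; abel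
      rw [this]
      exact (norm_add_le _ _).trans (by gcongr)
    have h4 : ‖x - y‖ ≤ σ⁻¹ * ‖A x - A y‖ := by
      rw [le_inv_mul_iff₀ hσ]; exact h2
    push_cast
    calc ‖f x - f y‖ ≤ ‖A x - A y‖ + δ * (σ⁻¹ * ‖A x - A y‖) := by
          refine h3.trans ?_
          gcongr
      _ = (1 + δ * σ⁻¹) * ‖A x - A y‖ := by ring
  calc μH[(m : ℝ)] (f '' s)
      ≤ ((1 + δ * σ'⁻¹ : ℝ≥0) : ℝ≥0∞) ^ (m : ℝ) * μH[(m : ℝ)] (A '' s) :=
        hausdorffMeasure_image_le_of_edist_le A f s _ (Nat.cast_nonneg m) hcmp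
    _ = ((1 + δ * σ'⁻¹ : ℝ≥0) : ℝ≥0∞) ^ (m : ℝ) * ENNReal.ofReal (nd A) * μH[(m : ℝ)] s := by
        rw [hausdorffMeasure_image_clm, mul_assoc]
    _ ≤ c * μH[(m : ℝ)] s := by gcongr

/-- upper bound, general case: apply the injective case to `x ↦ (f x, η x)` and `aug η A`
(`exists_nd_aug_lt`); the first projection is `1`-Lipschitz. -/
theorem image_le_mul_of_nd_lt (A : E m →L[ℝ] F) {c : ℝ≥0} (hc : ENNReal.ofReal (nd A) < c) :
    ∀ᶠ δ in 𝓝[>] (0 : ℝ≥0), ∀ (s : Set (E m)) (f : E m → F), ApproximatesLinearOn f A s δ →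
      μH[(m : ℝ)] (f '' s) ≤ c * μH[(m : ℝ)] s := by
  have hc' : nd A < c := by
    rw [← ENNReal.ofReal_coe_nnreal] at hc
    exact (ENNReal.ofReal_lt_ofReal_iff_of_nonneg (nd_nonneg A)).1 hc
  obtain ⟨η, hη, hlt⟩ := exists_nd_aug_lt A hc'
  have hc2 : ENNReal.ofReal (nd (aug η A)) < c := by
    rw [← ENNReal.ofReal_coe_nnreal]
    exact (ENNReal.ofReal_lt_ofReal_iff_of_nonneg (nd_nonneg _)).2 hlt
  filter_upwards [image_le_mul_of_nd_lt_of_injective (aug η A) (aug_injective hη.ne' A) hc2]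
    with δ hδ s f hf
  set f₂ : E m → WithLp 2 (F × E m) := fun x => WithLp.toLp 2 (f x, η • x) with hf₂
  have happ : ApproximatesLinearOn f₂ (aug η A) s δ := by
    intro x hx y hy
    have h1 : f₂ x - f₂ y - aug η A (x - y) = WithLp.toLp 2 (f x - f y - A (x - y), 0) := by
      rw [aug_apply, hf₂]
      simp only [← WithLp.toLp_sub, Prod.mk_sub_mk]
      congr 2
      rw [smul_sub, sub_self]
    rw [h1, WithLp.prod_norm_eq_of_L2]
    have h2 := hf x hx y hy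
    simpa using h2
  have hcmp : ∀ x ∈ s, ∀ y ∈ s, edist (f x) (f y) ≤ (1 : ℝ≥0) * edist (f₂ x) (f₂ y) := by
    intro x _ y _
    rw [ENNReal.coe_one, one_mul]
    exact WithLp.edist_fst_le (f₂ x) (f₂ y)
  calc μH[(m : ℝ)] (f '' s)
      ≤ ((1 : ℝ≥0) : ℝ≥0∞) ^ (m : ℝ) * μH[(m : ℝ)] (f₂ '' s) :=
        hausdorffMeasure_image_le_of_edist_le f₂ f s _ (Nat.cast_nonneg m) hcmp
    _ = μH[(m : ℝ)] (f₂ '' s) := by rw [ENNReal.coe_one, ENNReal.one_rpow, one_mul]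
    _ ≤ c * μH[(m : ℝ)] s := hδ s f₂ happ

/-- lower bound.  `nd A > 0`, so `A` is injective, `σ ‖v‖ ≤ ‖A v‖` and
`‖A x - A y‖ ≤ (1 - δ/σ)⁻¹ ‖f x - f y‖`; comparison lemma. -/
theorem mul_le_image_of_lt_nd (A : E m →L[ℝ] F) {c : ℝ≥0}
    (hc : (c : ℝ≥0∞) < ENNReal.ofReal (nd A)) :
    ∀ᶠ δ in 𝓝[>] (0 : ℝ≥0), ∀ (s : Set (E m)) (f : E m → F), ApproximatesLinearOn f A s δ →
      (c : ℝ≥0∞) * μH[(m : ℝ)] s ≤ μH[(m : ℝ)] (f '' s) := by
  have hA : Function.Injective A := by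
    by_contra hcon
    rw [(nd_eq_zero_iff A).2 hcon, ENNReal.ofReal_zero] at hc
    exact absurd hc not_lt_zero
  obtain ⟨σ, hσ, hA'⟩ := exists_lower_bound A hA
  set σ' : ℝ≥0 := ⟨σ, hσ.le⟩ with hσ'
  have hσ'pos : 0 < σ' := hσ
  have hT : Tendsto (fun δ : ℝ≥0 => ((1 - δ * σ'⁻¹ : ℝ≥0) : ℝ≥0∞) ^ (m : ℝ) *
      ENNReal.ofReal (nd A)) (𝓝 0) (𝓝 (((1 - 0 * σ'⁻¹ : ℝ≥0) : ℝ≥0∞) ^ (m : ℝ) *
      ENNReal.ofReal (nd A))) := by
    refine ENNReal.Tendsto.mul_const ?_ (Or.inr ENNReal.ofReal_ne_top)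
    refine (ENNReal.continuous_rpow_const.tendsto _).comp ?_
    refine ENNReal.tendsto_coe.2 ?_
    exact (Continuous.tendsto (by fun_prop) 0)
  simp only [zero_mul, tsub_zero, ENNReal.coe_one, ENNReal.one_rpow, one_mul] at hT
  have hev := (tendsto_order.1 hT).1 _ hc
  have hev2 : ∀ᶠ δ in 𝓝 (0 : ℝ≥0), δ < σ' := Iio_mem_nhds hσ'pos
  filter_upwards [(hev.and hev2).filter_mono nhdsWithin_le_nhds] with δ hδ s f hf
  obtain ⟨hδ1, hδ2⟩ := hδ
  have hlt1 : δ * σ'⁻¹ < 1 := by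
    rw [← div_eq_mul_inv, div_lt_one hσ'pos]; exact hδ2
  set κ : ℝ≥0 := 1 - δ * σ'⁻¹ with hκ
  have hκpos : 0 < κ := tsub_pos_of_lt hlt1
  have hκcoe : (κ : ℝ) = 1 - δ * σ⁻¹ := by
    rw [hκ, NNReal.coe_sub hlt1.le]
    push_cast
    rfl
  have hcmp : ∀ x ∈ s, ∀ y ∈ s, edist (A x) (A y) ≤ (κ⁻¹ : ℝ≥0) * edist (f x) (f y) := by
    intro x hx y hy
    refine edist_le_mul_edist_of_norm_le ?_
    have h1 := hf x hx y hy
    have h2 := hA' (x - y)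
    rw [map_sub] at h2
    have h3 : ‖A x - A y‖ ≤ ‖f x - f y‖ + δ * ‖x - y‖ := by
      have : A x - A y = (f x - f y) - (f x - f y - A (x - y)) := by rw [map_sub]; abel
      rw [this]
      exact (norm_sub_le _ _).trans (by gcongr)
    have h4 : ‖x - y‖ ≤ σ⁻¹ * ‖A x - A y‖ := by
      rw [le_inv_mul_iff₀ hσ]; exact h2
    have h5 : (κ : ℝ) * ‖A x - A y‖ ≤ ‖f x - f y‖ := by
      rw [hκcoe]
      have h6 : (δ : ℝ) * ‖x - y‖ ≤ δ * (σ⁻¹ * ‖A x - A y‖) := by gcongr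
      nlinarith
    push_cast
    rw [le_inv_mul_iff₀ (by exact_mod_cast hκpos)]
    exact h5
  have h7 := hausdorffMeasure_image_le_of_edist_le f A s _ (Nat.cast_nonneg m) hcmp
  have h8 : ((κ : ℝ≥0) : ℝ≥0∞) ^ (m : ℝ) * ((κ⁻¹ : ℝ≥0) : ℝ≥0∞) ^ (m : ℝ) = 1 := by
    rw [← ENNReal.mul_rpow_of_nonneg _ _ (Nat.cast_nonneg m), ← ENNReal.coe_mul,
      mul_inv_cancel₀ hκpos.ne', ENNReal.coe_one, ENNReal.one_rpow]
  calc (c : ℝ≥0∞) * μH[(m : ℝ)] s
      ≤ ((κ : ℝ≥0) : ℝ≥0∞) ^ (m : ℝ) * ENNReal.ofReal (nd A) * μH[(m : ℝ)] s := by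
        gcongr
    _ = ((κ : ℝ≥0) : ℝ≥0∞) ^ (m : ℝ) * μH[(m : ℝ)] (A '' s) := by
        rw [hausdorffMeasure_image_clm, mul_assoc]
    _ ≤ ((κ : ℝ≥0) : ℝ≥0∞) ^ (m : ℝ) *
          (((κ⁻¹ : ℝ≥0) : ℝ≥0∞) ^ (m : ℝ) * μH[(m : ℝ)] (f '' s)) := by
        gcongr
    _ = μH[(m : ℝ)] (f '' s) := by rw [← mul_assoc, h8, one_mul]

end Claimed.Agent.R322.Base.Area
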