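import Claimed.Agent.R322.Basic

/-!
# Row 322, Base/Area: definitions

* `nd L`      : the `m`-dimensional Jacobian of a linear map `L : E m →L F` (Mathlib's `normDet`).
* `projR A`   : `A (AᵀA)⁻¹ Aᵀ`, the orthogonal projection onto the range of an injective `A`.
* `stdProj`   : a fixed rank-`m` projection of `E (m+n)` (value of the tangent field off the atlas).
* `fibSum`    : fibre sums `∑_{x ∈ S, h x = y} w x` (the shape used by `SIV.area`).
* `Atlas`     : a countable family of injective differentiable Lipschitz pieces which cover the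
                carrier `M` up to a `μH[m]`-null set, with pairwise disjoint images.
* `Atlas.P`   : the tangent projection field of an atlas.

Everything which is proved about these objects is in the other files of this folder;
the interface for the other packages is `Base/Area/Main.lean`.
-/

set_option autoImplicit false

open scoped ENNReal NNReal
open MeasureTheory Set

namespace Claimed.Agent.R322.Base.Area

/-- `m`-dimensional Jacobian of a linear map defined on `E m`. -/
noncomputable def nd {m : ℕ} {F : Type*} [NormedAddCommGroup F] [InnerProductSpace ℝ F]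
    (L : E m →L[ℝ] F) : ℝ :=
  (L : E m →ₗ[ℝ] F).normDet

/-- `A (AᵀA)⁻¹ Aᵀ`: for injective `A` the orthogonal projection onto the range of `A`
(and `0` if `A` is not injective). -/
noncomputable def projR {m N : ℕ} (A : E m →L[ℝ] E N) : E N →L[ℝ] E N :=
  A ∘L Ring.inverse (ContinuousLinearMap.adjoint A ∘L A) ∘L ContinuousLinearMap.adjoint A

/-- the inclusion `y ↦ (y,0)` of `E m` in `E (m+n)`. -/
noncomputable def inclH (m n : ℕ) : E m →L[ℝ] E (m + n) :=
  LinearMap.toContinuousLinearMap
    { toFun := fun y => WithLp.toLp 2 (Fin.append (fun i => y i) (fun _ => (0 : ℝ)))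
      map_add' := fun x y => by
        ext i
        refine Fin.addCases (fun j => ?_) (fun j => ?_) i <;> simp
      map_smul' := fun c x => by
        ext i
        refine Fin.addCases (fun j => ?_) (fun j => ?_) i <;> simp }

/-- the projection onto the horizontal plane. -/
noncomputable def stdProj (m n : ℕ) : E (m + n) →L[ℝ] E (m + n) := projR (inclH m n)

/-- fibre sum of the weight `w` over the points of `S` in the fibre `h ⁻¹ {y}`. -/
noncomputable def fibSum {X Y : Type*} (S : Set X) (h : X → Y) (w : X → ℝ≥0∞) (y : Y) : ℝ≥0∞ :=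
  ∑' x : {x // x ∈ S ∧ h x = y}, w x

/-- **Atlas** of a countably `m`-rectifiable Borel set `M ⊆ E (m+n)`. -/
structure Atlas (m n : ℕ) (M : Set (E (m + n))) where
  /-- parameter domains -/
  A : ℕ → Set (E m)
  /-- parametrisations -/
  f : ℕ → E m → E (m + n)
  A_meas : ∀ i, MeasurableSet (A i)
  lip : ∀ i, ∃ L : ℝ≥0, LipschitzWith L (f i)
  diff : ∀ i, ∀ a ∈ A i, DifferentiableAt ℝ (f i) a
  inj_fderiv : ∀ i, ∀ a ∈ A i, Function.Injective (fderiv ℝ (f i) a)
  injOn : ∀ i, InjOn (f i) (A i)
  disj : Pairwise (Function.onFun Disjoint fun i => f i '' A i)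
  sub : ∀ i, f i '' A i ⊆ M
  null : μH[(m : ℝ)] (M \ ⋃ i, f i '' A i) = 0

open Classical in
/-- tangent projection field of an atlas: at `x = f i a`, `a ∈ A i`, the orthogonal projection onto
the range of `D (f i) a`; the horizontal projection at the points which are not covered. -/
noncomputable def Atlas.P {m n : ℕ} {M : Set (E (m + n))} (𝒜 : Atlas m n M) (x : E (m + n)) :
    E (m + n) →L[ℝ] E (m + n) :=
  if h : ∃ p : ℕ × E m, p.2 ∈ 𝒜.A p.1 ∧ 𝒜.f p.1 p.2 = x then
    projR (fderiv ℝ (𝒜.f h.choose.1) h.choose.2)
  else stdProj m n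

end Claimed.Agent.R322.Base.Area
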