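import Claimed.Agent.R322.Base.Area.Defs

/-!
# Row 322, Base/Area/LinNd: linear algebra of the Jacobians, part 1

Basic facts on `nd L = normDet L`, `L : E m →L F`, and the augmented map
`aug η L = (L, η • id) : E m →L F × E m` (always injective for `η ≠ 0`).
-/

set_option autoImplicit false
set_option linter.unusedSectionVars false

open scoped ENNReal NNReal Topology
open MeasureTheory Set Filter

namespace Claimed.Agent.R322.Base.Area

section nd

variable {m : ℕ} {F : Type*} [NormedAddCommGroup F] [InnerProductSpace ℝ F]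
  [FiniteDimensional ℝ F]

theorem nd_nonneg (L : E m →L[ℝ] F) : 0 ≤ nd L := LinearMap.normDet_nonneg _

/-- `ContinuousLinearMap.normDet_sq`. -/
theorem nd_sq (L : E m →L[ℝ] F) :
    nd L ^ 2 = (ContinuousLinearMap.adjoint L ∘L L).det := by
  have := ContinuousLinearMap.normDet_sq L
  simpa [nd] using this

/-- from `nd_sq`, `ContinuousLinearMap.continuous_det`, continuity of `adjoint` and of `∘L`. -/
theorem continuous_nd : Continuous (nd : (E m →L[ℝ] F) → ℝ) := by
  have h1 : (nd : (E m →L[ℝ] F) → ℝ) =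
      fun L => Real.sqrt ((ContinuousLinearMap.adjoint L ∘L L).det) := by
    ext L
    rw [← nd_sq, Real.sqrt_sq (nd_nonneg L)]
  rw [h1]
  refine Real.continuous_sqrt.comp (ContinuousLinearMap.continuous_det.comp ?_)
  exact (ContinuousLinearMap.adjoint (𝕜 := ℝ) (E := E m) (F := F)).continuous.clm_comp continuous_id

/-- `LinearMap.normDet_eq_zero_iff_ker_ne_bot`. -/
theorem nd_eq_zero_iff (L : E m →L[ℝ] F) : nd L = 0 ↔ ¬ Function.Injective L := by
  unfold nd
  rw [LinearMap.normDet_eq_zero_iff_ker_ne_bot, Ne, LinearMap.ker_eq_bot]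
  rfl

/-- `LinearMap.hausdorffMeasure_image` with `finrank ℝ (E m) = m`. -/
theorem hausdorffMeasure_image_clm [MeasurableSpace F] [BorelSpace F] (L : E m →L[ℝ] F)
    (s : Set (E m)) :
    μH[(m : ℝ)] (L '' s) = ENNReal.ofReal (nd L) * μH[(m : ℝ)] s := by
  have := LinearMap.hausdorffMeasure_image (L : E m →ₗ[ℝ] F) s
  rw [finrank_euclideanSpace_fin] at this
  exact this

/-- `ContinuousLinearMap.injective_iff_antilipschitz`. -/
theorem exists_lower_bound (L : E m →L[ℝ] F) (hL : Function.Injective L) :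
    ∃ σ : ℝ, 0 < σ ∧ ∀ v, σ * ‖v‖ ≤ ‖L v‖ := by
  obtain ⟨K, hK, h⟩ := L.injective_iff_antilipschitz.mp hL
  refine ⟨(K : ℝ)⁻¹, inv_pos.2 (by exact_mod_cast hK), fun v => ?_⟩
  have h1 := ZeroHomClass.bound_of_antilipschitz L h v
  rw [inv_mul_le_iff₀ (by exact_mod_cast hK)]
  exact h1

/-- the augmented map `v ↦ (L v, η v)`. -/
noncomputable def aug (η : ℝ) (L : E m →L[ℝ] F) : E m →L[ℝ] WithLp 2 (F × E m) :=
  ((WithLp.prodContinuousLinearEquiv 2 ℝ F (E m)).symm : (F × E m) →L[ℝ] WithLp 2 (F × E m)) ∘L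
    (L.prod (η • ContinuousLinearMap.id ℝ (E m)))

theorem aug_apply (η : ℝ) (L : E m →L[ℝ] F) (v : E m) :
    aug η L v = WithLp.toLp 2 (L v, η • v) := by
  rfl

theorem aug_injective {η : ℝ} (hη : η ≠ 0) (L : E m →L[ℝ] F) : Function.Injective (aug η L) := by
  intro v w h
  rw [aug_apply, aug_apply] at h
  have h1 := congrArg (fun z => (WithLp.ofLp z).2) h
  simp only at h1
  exact smul_right_injective _ hη h1

theorem adjoint_aug_comp (η : ℝ) (L : E m →L[ℝ] F) :
    ContinuousLinearMap.adjoint (aug η L) ∘L aug η L =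
      ContinuousLinearMap.adjoint L ∘L L + (η ^ 2) • ContinuousLinearMap.id ℝ (E m) := by
  ext1 v
  refine ext_inner_right ℝ fun w => ?_
  simp only [ContinuousLinearMap.comp_apply, ContinuousLinearMap.adjoint_inner_left,
    add_apply, inner_add_left, smul_apply,
    ContinuousLinearMap.id_apply, aug_apply, WithLp.prod_inner_apply, inner_smul_left,
    inner_smul_right]
  simp
  ring

/-- `(aug η L)ᵀ (aug η L) = Lᵀ L + η²`, hence `nd (aug η L)² = det (LᵀL + η²) → nd L²`. -/
theorem exists_nd_aug_lt (L : E m →L[ℝ] F) {c : ℝ} (hc : nd L < c) :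
    ∃ η : ℝ, 0 < η ∧ nd (aug η L) < c := by
  have h1 : ∀ η : ℝ, nd (aug η L) = Real.sqrt ((ContinuousLinearMap.adjoint L ∘L L +
      (η ^ 2) • ContinuousLinearMap.id ℝ (E m)).det) := by
    intro η
    rw [← adjoint_aug_comp, ← nd_sq, Real.sqrt_sq (nd_nonneg _)]
  have h2 : Continuous fun η : ℝ => nd (aug η L) := by
    simp only [h1]
    refine Real.continuous_sqrt.comp (ContinuousLinearMap.continuous_det.comp ?_)
    exact continuous_const.add ((continuous_pow 2).smul continuous_const)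
  have h3 : nd (aug 0 L) = nd L := by
    rw [h1]
    have hz : ((0 : ℝ) ^ 2) • ContinuousLinearMap.id ℝ (E m) = 0 := by
      ext1 v
      simp
    rw [hz, add_zero, ← nd_sq, Real.sqrt_sq (nd_nonneg _)]
  have h4 : ∀ᶠ η in 𝓝 (0 : ℝ), nd (aug η L) < c :=
    h2.continuousAt.eventually_lt continuousAt_const (by rw [h3]; exact hc)
  obtain ⟨η, hη, hpos⟩ := ((h4.filter_mono nhdsWithin_le_nhds).and
    (self_mem_nhdsWithin (s := Ioi (0 : ℝ)))).exists
  exact ⟨η, hpos, hη⟩

end nd

end Claimed.Agent.R322.Base.Area
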