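import Claimed.Agent.R322.Base.Area.LinNd

/-!
# Row 322, Base/Area/LinProj: linear algebra of the Jacobians, part 2

`projR A` is the orthogonal projection onto the range of an injective `A`, it depends measurably
on `A`, and `nd (L ∘ A) = tanJac (projR A) L * nd A`.
-/

set_option autoImplicit false

open scoped ENNReal NNReal Topology
open MeasureTheory Set Filter

namespace Claimed.Agent.R322.Base.Area

section proj

variable {m N k : ℕ}

local notation "adj" => ContinuousLinearMap.adjoint


theorem isUnit_gram (A : E m →L[ℝ] E N) (hA : Function.Injective A) :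
    IsUnit (ContinuousLinearMap.adjoint A ∘L A) := by
  rw [ContinuousLinearMap.isUnit_iff_isUnit_toLinearMap, LinearMap.isUnit_iff_ker_eq_bot]
  have h1 := ContinuousLinearMap.ker_adjoint_comp_self A
  have h2 : (A : E m →ₗ[ℝ] E N).ker = ⊥ := LinearMap.ker_eq_bot.2 hA
  rw [← h2]
  exact h1

/-- `K G = 1`. -/
theorem inv_gram_comp (A : E m →L[ℝ] E N) (hA : Function.Injective A) :
    Ring.inverse (adj A ∘L A) ∘L (adj A ∘L A) = ContinuousLinearMap.id ℝ (E m) :=
  Ring.inverse_mul_cancel _ (isUnit_gram A hA)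

theorem gram_comp_inv (A : E m →L[ℝ] E N) (hA : Function.Injective A) :
    (adj A ∘L A) ∘L Ring.inverse (adj A ∘L A) = ContinuousLinearMap.id ℝ (E m) :=
  Ring.mul_inverse_cancel _ (isUnit_gram A hA)

theorem adjoint_gram (A : E m →L[ℝ] E N) : adj (adj A ∘L A) = adj A ∘L A := by
  rw [ContinuousLinearMap.adjoint_comp, ContinuousLinearMap.adjoint_adjoint]

theorem adjoint_inv_gram (A : E m →L[ℝ] E N) (hA : Function.Injective A) :
    adj (Ring.inverse (adj A ∘L A)) = Ring.inverse (adj A ∘L A) := by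
  set G := adj A ∘L A with hG
  set K := Ring.inverse G with hK
  have h1 : K ∘L G = ContinuousLinearMap.id ℝ (E m) := inv_gram_comp A hA
  have h2 : G ∘L adj K = ContinuousLinearMap.id ℝ (E m) := by
    have := congrArg adj h1
    rw [ContinuousLinearMap.adjoint_comp, adjoint_gram] at this
    rw [this]
    exact ContinuousLinearMap.adjoint_id
  calc adj K = (K ∘L G) ∘L adj K := by rw [h1, ContinuousLinearMap.id_comp]
    _ = K ∘L (G ∘L adj K) := by rw [ContinuousLinearMap.comp_assoc]
    _ = K := by rw [h2, ContinuousLinearMap.comp_id]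

theorem projR_comp_self (A : E m →L[ℝ] E N) (hA : Function.Injective A) :
    projR A ∘L A = A := by
  unfold projR
  rw [ContinuousLinearMap.comp_assoc, ContinuousLinearMap.comp_assoc, inv_gram_comp A hA,
    ContinuousLinearMap.comp_id]

theorem adjoint_projR (A : E m →L[ℝ] E N) (hA : Function.Injective A) :
    adj (projR A) = projR A := by
  unfold projR
  rw [ContinuousLinearMap.adjoint_comp, ContinuousLinearMap.adjoint_comp,
    ContinuousLinearMap.adjoint_adjoint, adjoint_inv_gram A hA, ContinuousLinearMap.comp_assoc]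

theorem projR_isProj (A : E m →L[ℝ] E N) (hA : Function.Injective A) : IsProj m (projR A) := by
  refine ⟨?_, ?_, ?_⟩
  · have h0 : projR A ∘L projR A =
        (projR A ∘L A) ∘L (Ring.inverse (adj A ∘L A) ∘L adj A) := by
      rw [ContinuousLinearMap.comp_assoc]
      rfl
    rw [h0, projR_comp_self A hA]
    rfl
  · intro x y
    rw [← ContinuousLinearMap.adjoint_inner_right, adjoint_projR A hA]
  · have h1 : ((projR A : E N →L[ℝ] E N) : E N →ₗ[ℝ] E N) =
        (A : E m →ₗ[ℝ] E N) ∘ₗ ((Ring.inverse (adj A ∘L A) ∘L adj A : E N →L[ℝ] E m) :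
          E N →ₗ[ℝ] E m) := rfl
    rw [h1, LinearMap.trace_comp_comm']
    have h2 : ((Ring.inverse (adj A ∘L A) ∘L adj A : E N →L[ℝ] E m) : E N →ₗ[ℝ] E m) ∘ₗ
        (A : E m →ₗ[ℝ] E N) = LinearMap.id := by
      have := inv_gram_comp A hA
      ext1 v
      exact congrArg (fun T : E m →L[ℝ] E m => T v) this
    rw [h2, LinearMap.trace_id]
    simp


theorem measurable_ringInverse_clm :
    Measurable (Ring.inverse : (E m →L[ℝ] E m) → (E m →L[ℝ] E m)) := by
  classical
  have hopen : IsOpen {T : E m →L[ℝ] E m | IsUnit T} := Units.isOpen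
  have h1 : (Ring.inverse : (E m →L[ℝ] E m) → (E m →L[ℝ] E m)) =
      {T : E m →L[ℝ] E m | IsUnit T}.piecewise Ring.inverse 0 := by
    ext1 T
    by_cases hT : IsUnit T
    · rw [piecewise_eq_of_mem _ _ _ (show T ∈ {T : E m →L[ℝ] E m | IsUnit T} from hT)]
    · rw [piecewise_eq_of_notMem _ _ _ (show T ∉ {T : E m →L[ℝ] E m | IsUnit T} from hT),
        Ring.inverse_non_unit _ hT]
      rfl
  rw [h1]
  refine ContinuousOn.measurable_piecewise ?_ continuousOn_const hopen.measurableSet
  intro T hT
  obtain ⟨u, rfl⟩ := hT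
  exact (NormedRing.inverse_continuousAt u).continuousWithinAt

theorem measurable_projR : Measurable (projR : (E m →L[ℝ] E N) → (E N →L[ℝ] E N)) := by
  have hadj : Continuous fun A : E m →L[ℝ] E N => adj A :=
    (ContinuousLinearMap.adjoint (𝕜 := ℝ) (E := E m) (F := E N)).continuous
  have hG : Continuous fun A : E m →L[ℝ] E N => adj A ∘L A := hadj.clm_comp continuous_id
  have hK : Measurable fun A : E m →L[ℝ] E N => Ring.inverse (adj A ∘L A) :=
    measurable_ringInverse_clm.comp hG.measurable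
  have hc1 : Continuous fun p : (E m →L[ℝ] E m) × (E N →L[ℝ] E m) => p.1 ∘L p.2 :=
    continuous_fst.clm_comp continuous_snd
  have hc2 : Continuous fun p : (E m →L[ℝ] E N) × (E N →L[ℝ] E m) => p.1 ∘L p.2 :=
    continuous_fst.clm_comp continuous_snd
  have h1 : Measurable fun A : E m →L[ℝ] E N => Ring.inverse (adj A ∘L A) ∘L adj A :=
    hc1.measurable.comp (hK.prodMk hadj.measurable)
  exact hc2.measurable.comp (measurable_id.prodMk h1)

theorem inclH_injective (m n : ℕ) : Function.Injective (inclH m n) := by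
  intro x y h
  ext i
  have h1 := congrArg (fun z : E (m + n) => z (Fin.castAdd n i)) h
  simpa [inclH] using h1




/-- Weinstein–Aronszajn identity for linear maps. -/
theorem det_one_add_comp_comm (A : E m →ₗ[ℝ] E N) (C : E N →ₗ[ℝ] E m) :
    LinearMap.det (LinearMap.id + A ∘ₗ C) = LinearMap.det (LinearMap.id + C ∘ₗ A) := by
  set bm := (EuclideanSpace.basisFun (Fin m) ℝ).toBasis
  set bN := (EuclideanSpace.basisFun (Fin N) ℝ).toBasis
  rw [← LinearMap.det_toMatrix bN, ← LinearMap.det_toMatrix bm, map_add, map_add,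
    LinearMap.toMatrix_comp bN bm bN, LinearMap.toMatrix_comp bm bN bm, LinearMap.toMatrix_id,
    LinearMap.toMatrix_id, Matrix.det_one_add_mul_comm]

theorem nd_comp_eq_tanJac (A : E m →L[ℝ] E N) (hA : Function.Injective A) (L : E N →L[ℝ] E k) :
    nd (L ∘L A) = tanJac (projR A) L * nd A := by
  set G := adj A ∘L A with hG
  set K := Ring.inverse G with hK
  set H := adj L ∘L L with hH
  have hKG : K ∘L G = ContinuousLinearMap.id ℝ (E m) := inv_gram_comp A hA
  set W := adj A ∘L H ∘L A with hW
  set C : E N →L[ℝ] E m := (K ∘L W ∘L K - K) ∘L adj A with hC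
  set Q : E N →L[ℝ] E N := projR A ∘L (adj L) ∘L L ∘L projR A +
    (ContinuousLinearMap.id ℝ (E N) - projR A) with hQ
  have hP : projR A = A ∘L K ∘L adj A := rfl
  have h1 : Q = ContinuousLinearMap.id ℝ (E N) + A ∘L C := by
    rw [hQ, hC, hP, hW, hH]
    ext1 v
    simp only [ContinuousLinearMap.comp_apply, add_apply, sub_apply,
      ContinuousLinearMap.id_apply, map_sub]
    abel
  have h2 : ContinuousLinearMap.id ℝ (E m) + C ∘L A = K ∘L W := by
    have h3 : ∀ v, K (adj A (A v)) = v := fun v =>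
      congrArg (fun T : E m →L[ℝ] E m => T v) hKG
    rw [hC]
    ext1 v
    simp only [ContinuousLinearMap.comp_apply, add_apply, sub_apply,
      ContinuousLinearMap.id_apply, h3]
    abel
  have h4 : Q.det = K.det * W.det := by
    have := det_one_add_comp_comm (A : E m →ₗ[ℝ] E N) (C : E N →ₗ[ℝ] E m)
    have e1 : Q.det = LinearMap.det (LinearMap.id + (A : E m →ₗ[ℝ] E N) ∘ₗ (C : E N →ₗ[ℝ] E m)) := by
      rw [h1]; rfl
    have e2 : (K ∘L W).det =
        LinearMap.det (LinearMap.id + (C : E N →ₗ[ℝ] E m) ∘ₗ (A : E m →ₗ[ℝ] E N)) := by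
      rw [← h2]; rfl
    rw [e1, this, ← e2]
    exact LinearMap.det_comp _ _
  have h5 : K.det * G.det = 1 := by
    have : (K ∘L G).det = K.det * G.det := LinearMap.det_comp _ _
    rw [← this, hKG]
    exact LinearMap.det_id
  have h6 : W.det = nd (L ∘L A) ^ 2 := by
    rw [nd_sq, ContinuousLinearMap.adjoint_comp]
    rfl
  have h7 : G.det = nd A ^ 2 := (nd_sq A).symm
  have h8 : Q.det * nd A ^ 2 = nd (L ∘L A) ^ 2 := by
    rw [h4, ← h7, ← h6]
    calc K.det * W.det * G.det = (K.det * G.det) * W.det := by ring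
      _ = W.det := by rw [h5, one_mul]
  have h9 : tanJac (projR A) L = Real.sqrt Q.det := rfl
  rw [h9, ← Real.sqrt_sq (nd_nonneg A), ← Real.sqrt_mul' _ (sq_nonneg _), h8,
    Real.sqrt_sq (nd_nonneg _)]

theorem stdProj_isProj (m n : ℕ) : IsProj m (stdProj m n) :=
  projR_isProj _ (inclH_injective m n)

end proj

end Claimed.Agent.R322.Base.Area
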